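import Vale.Agent.P216.Main

namespace Vale.Agent.Results.P216.A_sym

open scoped ContDiff Manifold
open Vale.Agent.P255 Vale.Agent.P234 Vale.Agent.P216

theorem result {n : ℕ} {M : Type} [TopologicalSpace M]
    [ChartedSpace (EuclideanSpace ℝ (Fin n)) M] [IsManifold 𝓘(ℝ, EuclideanSpace ℝ (Fin n)) ∞ M]
    [T2Space M] [CompactSpace M] [ConnectedSpace M] (g : Metric (EuclideanSpace ℝ (Fin n)) M)
    {G : Type} [Group G] [MulAction G M]
    (hdiv : ∀ m : ℕ, 0 < m → ∀ a : G, ∃ b : G, b ^ m = a)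
    (hiso : ∀ (a : G) (x y : M), rdist g (a • x) (a • y) = rdist g x y)
    (h : (∃ σ : G, Invol M σ ∧ ∃ p : M, σ • p = p) ∨
      (∃ σ τ : G, Invol M σ ∧ Invol M τ ∧ Invol M (σ * τ)) ∨
      ∃ a b : G, Invol M (a * b * a⁻¹ * b⁻¹)) : InfMany g :=
  main g hdiv hiso h

end Vale.Agent.Results.P216.A_sym
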