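import Vale.Agent.P216C.Main

namespace Vale.Agent.Results.P216.C_sphere

open scoped ContDiff Manifold
open Vale.Agent.P255 Vale.Agent.P234 Vale.Agent.P216

theorem result {n : ℕ} {M : Type} [TopologicalSpace M]
    [ChartedSpace (EuclideanSpace ℝ (Fin n)) M] [IsManifold 𝓘(ℝ, EuclideanSpace ℝ (Fin n)) ∞ M]
    [T2Space M] [CompactSpace M] [ConnectedSpace M] (g : Metric (EuclideanSpace ℝ (Fin n)) M)
    (ψ : ℝ → M → M) (hψ : IsoFlow g ψ) (hne : ∃ t x, ψ t x ≠ x)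
    (h : (∀ T, (∀ x, ψ T (ψ T x) = x) → ∃ p, ψ T p = p) ∨
      (∃ ψ' : ℝ → M → M, IsoFlow g ψ' ∧ ∃ s, ∀ t, ψ' s ≠ ψ t) ∨
      ∃ k : ℕ, Nonempty (M ≃ₜ Metric.sphere (0 : EuclideanSpace ℝ (Fin (2 * k + 1))) 1)) :
    InfMany g :=
  mainC g hψ hne h

end Vale.Agent.Results.P216.C_sphere
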